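import Vale.Agent.P168S.Main

open MeasureTheory ProbabilityTheory Filter
open scoped NNReal Topology

namespace Vale.Agent.Results.P168.SharpClass

open Vale.Agent.P168 Vale.Agent.P168S

/-- (1) With no condition on the joint law of `b, f_1, …, f_K` the lower limit of the pressure is
at least the value of the formula, so the formula holds exactly when the upper bound does.
(2) The formula holds if the `f_j` have the same law, are independent, and are independent of `b`
(the class of Panchenko and Talagrand). (3) None of these three conditions can be dropped. -/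
theorem result :
    (∀ (K : ℕ) (lam : ℝ≥0) (ρ : Measure (Clause K)) (ν : Measure ℝ), BareClass K ρ ν →
      mezardParisi lam ρ ν ≤ liminf (fun N : ℕ => ((pressure lam ρ ν N : ℝ) : EReal)) atTop ∧
      (Tendsto (fun N : ℕ => ((pressure lam ρ ν N : ℝ) : EReal)) atTop
          (𝓝 (mezardParisi lam ρ ν)) ↔
        limsup (fun N : ℕ => ((pressure lam ρ ν N : ℝ) : EReal)) atTop ≤ mezardParisi lam ρ ν)) ∧
    (∀ (K : ℕ) (lam : ℝ≥0) (ρ : Measure (Clause K)) (ν : Measure ℝ), BareClass K ρ ν →
      SameLaw ρ → IndepF ρ → IndepB ρ →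
      ∃ L : ℝ, Tendsto (fun N : ℕ => pressure lam ρ ν N) atTop (𝓝 L) ∧
        mezardParisi lam ρ ν = (L : EReal)) ∧
    (∃ ρ : Measure (Clause 2), BareClass 2 ρ (Measure.dirac 0) ∧ IndepF ρ ∧ IndepB ρ ∧
      mezardParisi 2 ρ (Measure.dirac 0) <
        liminf (fun N : ℕ => ((pressure 2 ρ (Measure.dirac 0) N : ℝ) : EReal)) atTop) ∧
    (∃ ρ : Measure (Clause 2), BareClass 2 ρ (Measure.dirac 0) ∧ SameLaw ρ ∧ IndepF ρ ∧
      mezardParisi 2 ρ (Measure.dirac 0) <
        liminf (fun N : ℕ => ((pressure 2 ρ (Measure.dirac 0) N : ℝ) : EReal)) atTop) ∧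
    ∃ ρ : Measure (Clause 2), BareClass 2 ρ (Measure.dirac 0) ∧ SameLaw ρ ∧ IndepB ρ ∧
      mezardParisi 2 ρ (Measure.dirac 0) <
        liminf (fun N : ℕ => ((pressure 2 ρ (Measure.dirac 0) N : ℝ) : EReal)) atTop := by
  refine ⟨fun _ lam _ _ h => ⟨lower h lam, tendsto_iff h lam⟩,
    fun _ lam _ _ h h1 h2 h3 => Fin45.formula (Fin45.wide_of_in (inClass_of h h1 h2 h3)) lam,
    ⟨_, bareA, indepFA, indepB_of exA fun _ => rfl, ?_⟩, ⟨_, bareB, sameB, indepFB, ?_⟩,
    ⟨_, bareC, sameC, indepB_of exC fun _ => rfl, ?_⟩⟩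
  · have := bareA.prob_clause
    exact fails (ferro_ae _ ferroA)
  · have := bareB.prob_clause
    exact fails (ferro_ae _ ferroB)
  · have := bareC.prob_clause
    exact fails (ferro_ae _ ferroC)

end Vale.Agent.Results.P168.SharpClass
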